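import Vale.Agent.P153.R2.R1.Wolff
import Vale.Agent.P153.R2.HULL.Bounds
import Vale.Agent.P167.S6.Wolff
import Mathlib.MeasureTheory.Measure.Lebesgue.VolumeOfBalls

/-!
# P167: a half annulus of large modulus is not crossed in a ball of the size of its shortest circle

`exists_core`: `f` conformal on the half-plane, with bounded image, such that the images of the half
circles of radius `ρ ∈ (ρ₁, ρ₂)` around `x₀` have length at least `ℓ₀ > 0`, and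
`8 π ^ 2 M ^ 2 < log (ρ₂ / ρ₁)`. Then there are `ρ ∈ (ρ₁, ρ₂)`, `z₀` and `ℓ ≥ ℓ₀` such that the image of
the half circle of radius `ρ` is in the closed ball of radius `2 ℓ` about `z₀`, and no connected subset
of the ball of radius `M ℓ` about `z₀` (in the image of `f`) joins the image of the half disc of radius
`ρ₁` to the image of the complement of the half disc of radius `ρ₂`.
-/

set_option autoImplicit false

open Set Topology Metric MeasureTheory Filter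
open scoped ENNReal Real

namespace Vale.Agent.P167.H947.DT

open Vale.Agent.P164 Vale.Agent.P153.R2.R1 Vale.Agent.P153.R2.HULL
open Vale.Agent.P167.S6

/-- The half circle of radius `ρ` around `x₀`. -/
def arc (x₀ ρ : ℝ) : Set ℂ := {w | 0 < w.im ∧ ‖w - x₀‖ = ρ}

/-- Polar coordinates on the half circle. -/
theorem exists_ang {x₀ ρ : ℝ} (hρ : 0 < ρ) {w : ℂ} (hw : w ∈ arc x₀ ρ) :
    ∃ θ ∈ Ioo 0 π, (x₀ : ℂ) + ρ * Complex.exp (θ * Complex.I) = w := by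
  obtain ⟨h1, h2⟩ := hw
  have h3 : (w - x₀) ∈ UH := by
    rw [mem_UH]
    simpa using h1
  obtain ⟨t, ht, e⟩ := exists_hc hρ h3 h2
  refine ⟨π * t, ⟨mul_pos Real.pi_pos ht.1, by nlinarith [Real.pi_pos, ht.2]⟩, ?_⟩
  rw [hc] at e
  rw [e]
  ring

theorem ang_mem {x₀ ρ θ : ℝ} (hρ : 0 < ρ) (hθ : θ ∈ Ioo 0 π) :
    (x₀ : ℂ) + ρ * Complex.exp (θ * Complex.I) ∈ arc x₀ ρ := by
  constructor
  · rw [Complex.add_im, Complex.ofReal_im, zero_add, Complex.im_ofReal_mul,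
      Complex.exp_ofReal_mul_I_im]
    exact mul_pos hρ (Real.sin_pos_of_pos_of_lt_pi hθ.1 hθ.2)
  · rw [add_sub_cancel_left, norm_mul, Complex.norm_exp_ofReal_mul_I, Complex.norm_real,
      Real.norm_of_nonneg hρ.le, mul_one]

variable {f : ℂ → ℂ} {x₀ ρ ρ₁ ρ₂ M ℓ : ℝ} {z₀ : ℂ}

/-- Distances on the image of a half circle are bounded by the length. -/
theorem dist_arc_le {U : Set ℂ} (hU : IsOpen U) (hd : DifferentiableOn ℂ f U) (hρ : 0 < ρ)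
    {θ₁ θ₂ : ℝ} (h1 : θ₁ ∈ Ioo 0 π) (h2 : θ₂ ∈ Ioo 0 π)
    (h : ∀ θ ∈ uIcc θ₁ θ₂, (x₀ : ℂ) + ρ * Complex.exp (θ * Complex.I) ∈ U) :
    edist (f ((x₀ : ℂ) + ρ * Complex.exp (θ₁ * Complex.I)))
      (f ((x₀ : ℂ) + ρ * Complex.exp (θ₂ * Complex.I))) ≤ len U f x₀ ρ := by
  have hpi := Real.pi_pos
  rcases le_total θ₁ θ₂ with h12 | h12
  · rw [uIcc_of_le h12] at h
    rw [edist_comm, edist_eq_enorm_sub]
    exact dist_le_len hU hd (x₀ : ℂ) hρ h12 (by linarith [h1.1]) h2.2 h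
  · rw [uIcc_of_ge h12] at h
    rw [edist_eq_enorm_sub]
    exact dist_le_len hU hd (x₀ : ℂ) hρ h12 (by linarith [h2.1]) h1.2 h

/-- A connected set which meets the inner and the outer part meets the half circle. -/
theorem meets_arc (hd : DifferentiableOn ℂ f UH) (hi : InjOn f UH) {G : Set ℂ}
    (hG : IsPreconnected G) (hGf : G ⊆ f '' UH) {w₁ w₂ : ℂ} (h1 : w₁ ∈ UH) (h2 : w₂ ∈ UH)
    (h1G : f w₁ ∈ G) (h2G : f w₂ ∈ G) (h1ρ : ‖w₁ - x₀‖ < ρ) (h2ρ : ρ < ‖w₂ - x₀‖) :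
    ∃ w ∈ arc x₀ ρ, f w ∈ G := by
  by_contra hcon
  push Not at hcon
  have hnc : Continuous fun w : ℂ => ‖w - x₀‖ := by fun_prop
  have ho1 : IsOpen (f '' {w ∈ UH | ‖w - x₀‖ < ρ}) := isOpen_image_UH hd hi (sep_subset _ _)
    (isOpen_UH.inter (isOpen_lt hnc continuous_const))
  have ho2 : IsOpen (f '' {w ∈ UH | ρ < ‖w - x₀‖}) := isOpen_image_UH hd hi (sep_subset _ _)
    (isOpen_UH.inter (isOpen_lt continuous_const hnc))
  obtain ⟨z, hz, ⟨u, hu, rfl⟩, v, hv, he⟩ := hG _ _ ho1 ho2 (fun z hz => by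
    obtain ⟨w, hw, rfl⟩ := hGf hz
    rcases lt_trichotomy ‖w - x₀‖ ρ with h3 | h3 | h3
    · exact Or.inl ⟨w, ⟨hw, h3⟩, rfl⟩
    · exact (hcon w ⟨hw, h3⟩ hz).elim
    · exact Or.inr ⟨w, ⟨hw, h3⟩, rfl⟩) ⟨_, h1G, w₁, ⟨h1, h1ρ⟩, rfl⟩ ⟨_, h2G, w₂, ⟨h2, h2ρ⟩, rfl⟩
  have := hi hv.1 hu.1 he
  rw [this] at hv
  exact lt_asymm hu.2 hv.2

/-- If the image of the half circle meets the ball of radius `M ℓ`, then the part of its image in the
ball of radius `2 M ℓ` has length at least `ℓ`. -/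
theorem len_ge (hd : DifferentiableOn ℂ f UH) (hρ : 0 < ρ) (hM : 1 ≤ M) (hℓ : 0 < ℓ)
    (hlen : ENNReal.ofReal ℓ ≤ len UH f x₀ ρ) {w : ℂ} (hw : w ∈ arc x₀ ρ)
    (hwz : dist (f w) z₀ < M * ℓ) :
    ENNReal.ofReal ℓ ≤ len (UH ∩ f ⁻¹' ball z₀ (2 * M * ℓ)) f x₀ ρ := by
  set U : Set ℂ := UH ∩ f ⁻¹' ball z₀ (2 * M * ℓ) with hU
  have hUo : IsOpen U := hd.continuousOn.isOpen_inter_preimage isOpen_UH isOpen_ball
  have hdU : DifferentiableOn ℂ f U := hd.mono inter_subset_left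
  set γ : ℝ → ℂ := fun θ => (x₀ : ℂ) + ρ * Complex.exp (θ * Complex.I) with hγ
  have hγc : Continuous γ := by rw [hγ]; fun_prop
  have hγm : ∀ θ ∈ Ioo 0 π, γ θ ∈ UH := fun θ hθ => (ang_mem hρ hθ).1
  obtain ⟨θ₀, hθ₀, hθw⟩ := exists_ang hρ hw
  have hθw' : γ θ₀ = w := hθw
  have hMℓ : ℓ ≤ M * ℓ := by nlinarith
  by_cases hall : ∀ θ ∈ Ioo 0 π, dist (f (γ θ)) (f w) < ℓ
  · -- the whole half circle is in the large ball
    have hsub : ∀ θ ∈ Ioo 0 π, γ θ ∈ U := by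
      intro θ hθ
      refine ⟨hγm θ hθ, ?_⟩
      show f (γ θ) ∈ ball z₀ (2 * M * ℓ)
      rw [mem_ball]
      have := dist_triangle (f (γ θ)) (f w) z₀
      have := hall θ hθ
      nlinarith
    refine hlen.trans (le_of_eq ?_)
    unfold len
    refine setLIntegral_congr_fun measurableSet_Ioo fun θ hθ => ?_
    congr 1
    unfold dens
    by_cases h0 : θ ∈ Ioo 0 π
    · rw [Set.indicator_of_mem (hγm θ h0), Set.indicator_of_mem (hsub θ h0)]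
    · have h1 : γ θ ∉ UH := by
        intro h2
        rw [mem_UH] at h2
        have h3 : 0 < Real.sin θ := by
          have h4 : (γ θ).im = ρ * Real.sin θ := by
            simp only [hγ]
            rw [Complex.add_im, Complex.ofReal_im, zero_add, Complex.im_ofReal_mul,
              Complex.exp_ofReal_mul_I_im]
          rw [h4] at h2
          exact (mul_pos_iff_of_pos_left hρ).1 h2
        have h5 : ¬ 0 < θ := fun h6 => h0 ⟨h6, hθ.2⟩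
        have h6 := Real.sin_nonpos_of_nonpos_of_neg_pi_le (not_lt.1 h5) hθ.1.le
        linarith
      rw [Set.indicator_of_notMem h1, Set.indicator_of_notMem (fun h2 => h1 h2.1)]
  · push Not at hall
    obtain ⟨θ₁, hθ₁, hθ₁'⟩ := hall
    -- the function
    set g : ℝ → ℝ := fun θ => dist (f (γ θ)) (f w) with hg
    have hgc : ContinuousOn g (Ioo 0 π) := by
      have h1 : ContinuousOn (fun θ => f (γ θ)) (Ioo 0 π) :=
        hd.continuousOn.comp hγc.continuousOn hγm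
      exact continuous_dist.comp_continuousOn (h1.prodMk continuousOn_const)
    have hsubI : uIcc θ₀ θ₁ ⊆ Ioo 0 π := by
      intro θ hθ
      rw [mem_uIcc] at hθ
      rcases hθ with hθ | hθ
      · exact ⟨hθ₀.1.trans_le hθ.1, hθ.2.trans_lt hθ₁.2⟩
      · exact ⟨hθ₁.1.trans_le hθ.1, hθ.2.trans_lt hθ₀.2⟩
    have hg0 : g θ₀ = 0 := by
      simp only [hg]
      rw [hθw', dist_self]
    -- the nearest parameter with `g ≥ ℓ`
    set P : Set ℝ := uIcc θ₀ θ₁ ∩ {θ | ℓ ≤ g θ} with hP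
    have hPc : IsCompact P := by
      have h1 : IsClosed P := by
        have h2 : P = uIcc θ₀ θ₁ ∩ g ⁻¹' Ici ℓ := rfl
        rw [h2]
        exact (hgc.mono hsubI).preimage_isClosed_of_isClosed isClosed_Icc isClosed_Ici
      exact isCompact_uIcc.of_isClosed_subset h1 inter_subset_left
    have hPne : P.Nonempty := ⟨θ₁, right_mem_uIcc, hθ₁'⟩
    obtain ⟨θ₂, hθ₂, hmin⟩ := hPc.exists_isMinOn hPne
      (f := fun θ => |θ - θ₀|) (by fun_prop)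
    have hθ₂I := hsubI hθ₂.1
    have hlt : ∀ θ ∈ uIcc θ₀ θ₂, θ ≠ θ₂ → g θ < ℓ := by
      intro θ hθ hne
      by_contra hc
      push Not at hc
      have hθm : θ ∈ P := ⟨uIcc_subset_uIcc left_mem_uIcc hθ₂.1 hθ, hc⟩
      have h1 := hmin hθm
      simp only [mem_ofPred_eq] at h1
      rw [mem_uIcc] at hθ
      rcases hθ with hθ | hθ
      · have h2 : θ < θ₂ := lt_of_le_of_ne hθ.2 hne
        rw [abs_of_nonneg (by linarith [hθ.1]), abs_of_nonneg (by linarith [hθ.1])] at h1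
        linarith
      · have h2 : θ₂ < θ := lt_of_le_of_ne hθ.1 (Ne.symm hne)
        rw [abs_of_nonpos (by linarith [hθ.2]), abs_of_nonpos (by linarith [hθ.2])] at h1
        linarith
    have hne0 : θ₀ ≠ θ₂ := by
      intro h
      have h1 : ℓ ≤ g θ₂ := hθ₂.2
      rw [← h, hg0] at h1
      linarith
    -- `g θ₂ ≤ ℓ` by continuity
    have hle : g θ₂ ≤ ℓ := by
      have hcw : ContinuousWithinAt g (uIcc θ₀ θ₂ \ {θ₂}) θ₂ :=
        (hgc θ₂ hθ₂I).mono fun θ hθ => hsubI (uIcc_subset_uIcc left_mem_uIcc hθ₂.1 hθ.1)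
      have hcl : θ₂ ∈ closure (uIcc θ₀ θ₂ \ {θ₂}) := by
        rcases lt_or_gt_of_ne hne0 with h | h
        · have h1 : Ioo θ₀ θ₂ ⊆ uIcc θ₀ θ₂ \ {θ₂} := fun θ hθ =>
            ⟨by rw [uIcc_of_le h.le]; exact ⟨hθ.1.le, hθ.2.le⟩, hθ.2.ne⟩
          refine closure_mono h1 ?_
          rw [closure_Ioo h.ne]
          exact ⟨h.le, le_rfl⟩
        · have h1 : Ioo θ₂ θ₀ ⊆ uIcc θ₀ θ₂ \ {θ₂} := fun θ hθ =>
            ⟨by rw [uIcc_of_ge h.le]; exact ⟨hθ.1.le, hθ.2.le⟩, hθ.1.ne'⟩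
          refine closure_mono h1 ?_
          rw [closure_Ioo h.ne]
          exact ⟨le_rfl, h.le⟩
      have hne' : (𝓝[uIcc θ₀ θ₂ \ {θ₂}] θ₂).NeBot := mem_closure_iff_nhdsWithin_neBot.1 hcl
      refine le_of_tendsto hcw ?_
      filter_upwards [self_mem_nhdsWithin] with θ hθ
      exact (hlt θ hθ.1 hθ.2).le
    have hin : ∀ θ ∈ uIcc θ₀ θ₂, γ θ ∈ U := by
      intro θ hθ
      have hθI := hsubI (uIcc_subset_uIcc left_mem_uIcc hθ₂.1 hθ)
      refine ⟨hγm θ hθI, ?_⟩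
      show f (γ θ) ∈ ball z₀ (2 * M * ℓ)
      rw [mem_ball]
      have h1 : g θ ≤ ℓ := by
        by_cases h2 : θ = θ₂
        · rw [h2]; exact hle
        · exact (hlt θ hθ h2).le
      have h3 := dist_triangle (f (γ θ)) (f w) z₀
      have h4 : dist (f (γ θ)) (f w) ≤ ℓ := h1
      nlinarith
    have h1 := dist_arc_le hUo hdU hρ hθ₀ hθ₂I hin
    refine le_trans ?_ h1
    rw [edist_comm, edist_dist]
    apply ENNReal.ofReal_le_ofReal
    have h2 : ℓ ≤ g θ₂ := hθ₂.2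
    have h3 : f ((x₀ : ℂ) + ρ * Complex.exp (θ₀ * Complex.I)) = f w := by rw [hθw]
    rw [h3]
    exact h2

/-- **No crossing in the ball of the size of the shortest half circle.** -/
theorem exists_core (hd : DifferentiableOn ℂ f UH) (hi : InjOn f UH) {A : ℝ} (hA : 0 ≤ A)
    (hvol : volume (f '' UH) ≤ ENNReal.ofReal A) (h1 : 0 < ρ₁) (h12 : ρ₁ < ρ₂) (hM : 1 ≤ M)
    (hlog : 8 * π ^ 2 * M ^ 2 < Real.log (ρ₂ / ρ₁)) {ℓ₀ : ℝ} (hℓ₀ : 0 < ℓ₀)
    (hlen : ∀ ρ ∈ Ioo ρ₁ ρ₂, ENNReal.ofReal ℓ₀ ≤ len UH f x₀ ρ) :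
    ∃ (z₀ : ℂ) (ℓ ρ : ℝ), ℓ₀ ≤ ℓ ∧ ρ ∈ Ioo ρ₁ ρ₂ ∧
      (∀ w ∈ arc x₀ ρ, dist (f w) z₀ ≤ 2 * ℓ) ∧
      ∀ G ⊆ f '' UH ∩ ball z₀ (M * ℓ), IsPreconnected G → ∀ w₁ ∈ UH, ∀ w₂ ∈ UH, f w₁ ∈ G →
        f w₂ ∈ G → ‖w₁ - x₀‖ ≤ ρ₁ → ‖w₂ - x₀‖ < ρ₂ := by
  have hpi := Real.pi_pos
  have hlog0 : 0 < Real.log (ρ₂ / ρ₁) := lt_of_le_of_lt (by positivity) hlog
  have hne : (Ioo ρ₁ ρ₂).Nonempty := nonempty_Ioo.2 h12
  -- the infimum of the lengths
  set L : ℝ≥0∞ := ⨅ ρ ∈ Ioo ρ₁ ρ₂, len UH f x₀ ρ with hL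
  have hL0 : ENNReal.ofReal ℓ₀ ≤ L := le_iInf₂ hlen
  have hLle : ∀ ρ ∈ Ioo ρ₁ ρ₂, L ≤ len UH f x₀ ρ := fun ρ hρ => iInf₂_le ρ hρ
  have hLtop : L ≠ ∞ := by
    obtain ⟨ρ, hρ, h2⟩ := exists_short isOpen_UH hd hi hA hvol (x₀ : ℂ) h1 h12
      (K := (2 * π * A + 1) / Real.log (ρ₂ / ρ₁)) (by
        rw [div_mul_cancel₀ _ hlog0.ne']
        linarith)
    have h3 : len UH f x₀ ρ ≠ ∞ := by
      intro h4
      rw [h4] at h2
      simp at h2
    exact ne_top_of_le_ne_top h3 (hLle ρ hρ)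
  set ℓ : ℝ := L.toReal with hℓ
  have hLℓ : ENNReal.ofReal ℓ = L := ENNReal.ofReal_toReal hLtop
  have hℓℓ₀ : ℓ₀ ≤ ℓ := by
    rw [← hLℓ] at hL0
    exact (ENNReal.ofReal_le_ofReal_iff (ENNReal.toReal_nonneg)).1 hL0
  have hℓpos : 0 < ℓ := hℓ₀.trans_le hℓℓ₀
  -- an almost shortest half circle
  obtain ⟨ρ, hρ, hρL⟩ : ∃ ρ ∈ Ioo ρ₁ ρ₂, len UH f x₀ ρ < ENNReal.ofReal (2 * ℓ) := by
    by_contra hcon
    push Not at hcon
    have h2 : ENNReal.ofReal (2 * ℓ) ≤ L := le_iInf₂ hcon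
    rw [← hLℓ, ENNReal.ofReal_le_ofReal_iff hℓpos.le] at h2
    linarith
  have hρ0 : 0 < ρ := h1.trans hρ.1
  set θc : ℝ := π / 2 with hθc
  have hθcm : θc ∈ Ioo 0 π := ⟨by positivity, by rw [hθc]; linarith⟩
  set z₀ : ℂ := f ((x₀ : ℂ) + ρ * Complex.exp (θc * Complex.I)) with hz₀
  refine ⟨z₀, ℓ, ρ, hℓℓ₀, hρ, ?_, ?_⟩
  · intro w hw
    obtain ⟨θ, hθ, rfl⟩ := exists_ang hρ0 hw
    have h2 := dist_arc_le (x₀ := x₀) isOpen_UH hd hρ0 hθ hθcm (fun θ' hθ' => by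
      have : θ' ∈ Ioo 0 π := by
        rw [mem_uIcc] at hθ'
        rcases hθ' with h | h
        · exact ⟨hθ.1.trans_le h.1, h.2.trans_lt hθcm.2⟩
        · exact ⟨hθcm.1.trans_le h.1, h.2.trans_lt hθ.2⟩
      exact (ang_mem hρ0 this).1)
    have h3 := h2.trans hρL.le
    rw [edist_dist, ENNReal.ofReal_le_ofReal_iff (by positivity)] at h3
    exact h3
  · intro G hG hGc w₁ hw₁ w₂ hw₂ hw₁G hw₂G hw₁ρ
    by_contra hcon
    push Not at hcon
    set U : Set ℂ := UH ∩ f ⁻¹' ball z₀ (2 * M * ℓ) with hU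
    have hUo : IsOpen U := hd.continuousOn.isOpen_inter_preimage isOpen_UH isOpen_ball
    have hvolU : volume (f '' U) ≤ ENNReal.ofReal (π * (2 * M * ℓ) ^ 2) := by
      have h2 : f '' U ⊆ ball z₀ (2 * M * ℓ) := by
        rintro _ ⟨w, hw, rfl⟩
        exact hw.2
      refine (measure_mono h2).trans (le_of_eq ?_)
      rw [Complex.volume_ball, ← ENNReal.ofReal_pow (by positivity), mul_comm π,
        ENNReal.ofReal_mul (by positivity)]
      congr 1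
      rw [← NNReal.coe_real_pi, ENNReal.ofReal_coe_nnreal]
    obtain ⟨ρ', hρ', h3⟩ := exists_short hUo (hd.mono inter_subset_left)
      (hi.mono inter_subset_left) (A := π * (2 * M * ℓ) ^ 2) (by positivity) hvolU (x₀ : ℂ) h1 h12
      (K := ℓ ^ 2) (by
        have e : 2 * π * (π * (2 * M * ℓ) ^ 2) = ℓ ^ 2 * (8 * π ^ 2 * M ^ 2) := by ring
        rw [e]
        exact mul_lt_mul_of_pos_left hlog (by positivity))
    have hρ'0 : 0 < ρ' := h1.trans hρ'.1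
    obtain ⟨w, hw, hwG⟩ := meets_arc (ρ := ρ') (x₀ := x₀) hd hi hGc (fun z hz => (hG hz).1) hw₁ hw₂
      hw₁G hw₂G (hw₁ρ.trans_lt hρ'.1) (hρ'.2.trans_le hcon)
    have h4 := len_ge (z₀ := z₀) hd hρ'0 hM hℓpos (by rw [hLℓ]; exact hLle ρ' hρ') hw
      (mem_ball.1 (hG hwG).2)
    have h5 := pow_le_pow_left₀ bot_le h4 2
    rw [← ENNReal.ofReal_pow hℓpos.le] at h5
    exact absurd h3 (not_lt.2 h5)

end Vale.Agent.P167.H947.DT
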