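import Vale.Agent.P167.H947.DT.Lim
import Vale.Agent.P167.H947.DT.Len
import Vale.Agent.P167.QC.DT.Off

/-!
# P167: a visit of a small half disc gives a crossing of an annulus which is not cut
-/

set_option autoImplicit false
set_option linter.unusedVariables false

open MeasureTheory Filter Topology Set Metric
open scoped NNReal ENNReal Real

namespace Vale.Agent.P167.H947.DT

open Vale.Agent.P164 Vale.Agent.P153.R2.HULL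
open Vale.Agent.P153.R2
open Vale.Agent.P153.R2.R1 (len)
open Vale.Agent.P153.R2.DET (Uni HC)
open Vale.Agent.P167.H411
open Vale.Agent.P167.S6 (isOpen_image_UH)

/-- The inverse of a conformal map of the half-plane is continuous. -/
theorem inv_contOn {f : ℂ → ℂ} (hd : DifferentiableOn ℂ f UH) (hi : InjOn f UH) :
    ContinuousOn (Function.invFunOn f UH) (f '' UH) := by
  rintro _ ⟨w, hw, rfl⟩
  have hinv : ∀ v ∈ UH, Function.invFunOn f UH (f v) = v := fun v hv =>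
    hi (Function.invFunOn_mem ⟨v, hv, rfl⟩) hv (Function.invFunOn_eq ⟨v, hv, rfl⟩)
  rw [ContinuousWithinAt, hinv w hw]
  intro N hN
  obtain ⟨O, hON, hO, hwO⟩ := _root_.mem_nhds_iff.1 hN
  have h1 : IsOpen (f '' (O ∩ UH)) := isOpen_image_UH hd hi inter_subset_right (hO.inter isOpen_UH)
  rw [mem_map]
  refine mem_nhdsWithin.2 ⟨_, h1, ⟨w, ⟨hwO, hw⟩, rfl⟩, ?_⟩
  rintro _ ⟨⟨v, ⟨hvO, hv⟩, rfl⟩, -⟩
  show Function.invFunOn f UH (f v) ∈ N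
  rw [hinv v hv]
  exact hON hvO

variable {A B : Type*} {Q : DC A B} {ψ : ℂ → ℂ} {b : ℂ} {ε : ℝ} {h : A} {k : ℕ}

/-- **From a visit to a crossing which is not cut.** -/
theorem cross_of_visit (H : Q.WF ψ b ε) (hU : Uni ψ b) (hh : h ∈ Q.C)
    (hd : DifferentiableOn ℂ ψ {z : ℂ | 0 < z.im}) (hk : k < Q.K h) {x₀ ρ₁ ρ₂ rs ℓ M : ℝ} {z₀ : ℂ}
    (h1 : 0 < ρ₁) (hrs : rs ∈ Ioo ρ₁ ρ₂) (hx : ρ₂ < |x₀|)
    (hC : ∀ w ∈ arc x₀ rs, dist (Fm Q ψ h k w) z₀ ≤ 2 * ℓ) (hM : 2 * ℓ < M * ℓ)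
    (hno : ∀ G ⊆ Fm Q ψ h k '' UH ∩ ball z₀ (M * ℓ), IsPreconnected G → ∀ w₁ ∈ UH, ∀ w₂ ∈ UH,
      Fm Q ψ h k w₁ ∈ G → Fm Q ψ h k w₂ ∈ G → ‖w₁ - x₀‖ ≤ ρ₁ → ‖w₂ - x₀‖ < ρ₂)
    (hvis : ∃ u ∈ Ioo (k : ℝ) (Q.K h), ‖Gm Q ψ h k u - x₀‖ < ρ₁) :
    ∃ s ∈ Ioo (k : ℝ) (Q.K h), ∃ s' ∈ Ioo (k : ℝ) (Q.K h), dist (Q.X h s) z₀ ≤ 2 * ℓ ∧
      M * ℓ ≤ dist (Q.X h s') z₀ ∧
      ¬ ∃ (Z : Set ℂ) (u : ℝ), u ∈ Ioo (k : ℝ) (Q.K h) ∧ min s s' < u ∧ u < max s s' ∧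
        Q.X h u ∈ Z ∧ IsPreconnected Z ∧
        Z ⊆ ψ '' {z : ℂ | 0 < z.im} \ Q.X h '' Icc 0 (k : ℝ) ∧
        (∀ z ∈ Z, 2 * ℓ < dist z z₀ ∧ dist z z₀ < M * ℓ) ∧
        ∀ u₀ ∈ Ioo (k : ℝ) u, ∀ u₁ ∈ Ioo u (Q.K h : ℝ),
          ¬ JoinedIn (ψ '' {z : ℂ | 0 < z.im} \ (Q.X h '' Icc 0 (k : ℝ) ∪ Z))
            (Q.X h u₀) (Q.X h u₁) := by
  have hk0 : (0 : ℝ) ≤ k := Nat.cast_nonneg k
  have hfd := Fm_diff H hU hh hd hk
  have hfi := Fm_inj H hU hh hk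
  have himg := Fm_image H hU hh hk
  have hinv : ∀ w ∈ UH, Function.invFunOn (Fm Q ψ h k) UH (Fm Q ψ h k w) = w := fun v hv =>
    hfi (Function.invFunOn_mem ⟨v, hv, rfl⟩) hv (Function.invFunOn_eq ⟨v, hv, rfl⟩)
  have hgX : ∀ u ∈ Ioo (k : ℝ) (Q.K h), Function.invFunOn (Fm Q ψ h k) UH (Q.X h u) =
      Gm Q ψ h k u := by
    intro u hu
    rw [← Fm_Gm H hU hh hk hu]
    exact hinv _ (Gm_im H hU hh hk hu)
  have hkK : (k : ℝ) < Q.K h := by exact_mod_cast hk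
  refine QC.DT.cut_off (f := Fm Q ψ h k) (g := Function.invFunOn (Fm Q ψ h k) UH) (x₀ := x₀)
    (r := ρ₁) (rs := rs) (R' := ρ₂) hfd.continuousOn ?_ hinv (inv_contOn hfd hfi) ?_ ?_ ?_ hrs.1
    hrs.2 (h1.trans hrs.1) ?_ ?_ ?_ ?_ hM ?_
  · intro w hw
    rw [← himg]
    exact ⟨w, hw, rfl⟩
  · intro Z _ hZ _ z hz
    have := hZ hz
    rw [← himg] at this
    exact this
  · exact (H.cont h hh).mono fun u hu => ⟨hk0.trans hu.1.le, hu.2.le⟩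
  · intro t ht
    exact ⟨_, Gm_im H hU hh hk ht, Fm_Gm H hU hh hk ht⟩
  · have h2 := Gm_zero H hU hh hk
    have h3 : Tendsto (fun u => ‖Gm Q ψ h k u - x₀‖) (𝓝[>] (k : ℝ)) (𝓝 |x₀|) := by
      have h4 := (h2.sub_const (x₀ : ℂ)).norm
      rwa [zero_sub, norm_neg, Complex.norm_real, Real.norm_eq_abs] at h4
    filter_upwards [h3.eventually_const_lt hx, Ioo_mem_nhdsGT hkK] with u hu hum
    rwa [hgX u hum]
  · have h2 := Gm_inf H hU hh hk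
    filter_upwards [h2.eventually_gt_atTop (ρ₂ + |x₀|), Ioo_mem_nhdsLT hkK] with u hu hum
    rw [hgX u hum]
    have h3 := norm_sub_norm_le (Gm Q ψ h k u) (x₀ : ℂ)
    rw [Complex.norm_real, Real.norm_eq_abs] at h3
    linarith
  · obtain ⟨u, hu, hur⟩ := hvis
    refine ⟨u, hu, ?_⟩
    rw [hgX u hu]
    exact hur.le
  · intro w hw hwr
    exact hC w ⟨hw, hwr⟩
  · rintro P hP hPc hPb ⟨w₁, hw₁, hw₁r⟩ ⟨w₂, hw₂, hw₂r⟩
    have h2 := hno (Fm Q ψ h k '' P) (fun z hz => by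
      obtain ⟨w, hw, rfl⟩ := hz
      exact ⟨⟨w, hP hw, rfl⟩, hPb ⟨w, hw, rfl⟩⟩) (hPc.image _ (hfd.continuousOn.mono hP))
      w₁ (hP hw₁) w₂ (hP hw₂) ⟨w₁, hw₁, rfl⟩ ⟨w₂, hw₂, rfl⟩ hw₁r
    linarith

/-- The image of a uniformizer has finite area. -/
theorem vol_fin {ψ : ℂ → ℂ} {b : ℂ} (h : Uni ψ b) :
    ∃ C : ℝ, 0 ≤ C ∧ volume (ψ '' UH) ≤ ENNReal.ofReal C := by
  obtain ⟨R0, hR0, hR0'⟩ := S6.near_of_far h one_pos
  obtain ⟨B, hB⟩ := ((isCompact_closedBall (0 : ℂ) R0).inter_left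
    (isClosed_le continuous_const Complex.continuous_im)).exists_bound_of_continuousOn
    (f := ψ) (s := HC ∩ closedBall (0 : ℂ) R0) (h.cont.mono inter_subset_left)
  have hψb : ∀ z ∈ HC, ‖ψ z‖ ≤ max B (‖b‖ + 1) := by
    intro z hz
    rcases le_total R0 ‖z‖ with h' | h'
    · have h1 := hR0' z hz h'
      rw [dist_eq_norm] at h1
      have h2 := norm_sub_norm_le (ψ z) b
      exact le_max_of_le_right (by linarith)
    · exact le_max_of_le_left (hB z ⟨hz, by rwa [mem_closedBall_zero_iff]⟩)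
  have hfin : volume (closedBall (0 : ℂ) (max B (‖b‖ + 1))) ≠ ∞ :=
    (isCompact_closedBall _ _).measure_lt_top.ne
  refine ⟨(volume (closedBall (0 : ℂ) (max B (‖b‖ + 1)))).toReal, ENNReal.toReal_nonneg, ?_⟩
  rw [ENNReal.ofReal_toReal hfin]
  apply measure_mono
  rintro _ ⟨z, hz, rfl⟩
  rw [mem_closedBall_zero_iff]
  exact hψb z (show (0 : ℝ) ≤ z.im from le_of_lt hz)

end Vale.Agent.P167.H947.DT
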