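import Vale.Agent.P153.R2.STEP.Flow

/-!
# P167: a driver cannot pass a half disc in a short time unless the hull visits it

`disc_dies`: if the driver passes the value `x₀` (relatively to its value at time `a`) before the
time `b`, and `256 (b - a) ≤ r ^ 2`, then some point whose image at time `a` is at distance `< r` from
`x₀` is swallowed between the times `a` and `b`.
-/

set_option autoImplicit false

open Set Metric Filter Topology

namespace Vale.Agent.P167.H947.DT

open Vale.Agent.P164 Vale.Agent.P153.R2.HULL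

variable {V : ℝ → ℝ} {T t x₀ r : ℝ} {z : ℂ}

/-- The loss of height is at most `4 t / y`. -/
theorem loss_le (ht : 0 ≤ t) (h : z ∈ loewnerDomain V t) :
    (z.im - (gf V z t).im) * z.im ≤ 4 * t := by
  have h1 := sq_im_ge ht h
  have h2 : (Zf V z t).im ≤ z.im := by
    have h3 := im_le_of_le (W := V) le_rfl ht h
    rwa [Zf_zero (im_pos_of_dom ht h), Complex.sub_im, Complex.ofReal_im, sub_zero] at h3
  have h3 : 0 < (Zf V z t).im := Zf_im_pos ht h
  rw [← Zf_im_eq]
  nlinarith [im_pos_of_dom ht h]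

theorem im_gf_le (ht : 0 ≤ t) (h : z ∈ loewnerDomain V t) : (gf V z t).im ≤ z.im := by
  have h3 := im_le_of_le (W := V) le_rfl ht h
  rwa [Zf_zero (im_pos_of_dom ht h), Complex.sub_im, Complex.ofReal_im, sub_zero, Zf_im_eq] at h3

theorem im_gf_pos (ht : 0 ≤ t) (h : z ∈ loewnerDomain V t) : 0 < (gf V z t).im := by
  rw [← Zf_im_eq]
  exact Zf_im_pos ht h

/-- The barrier. -/
noncomputable def bar (x₀ r T : ℝ) (z : ℂ) : ℂ :=
  4 * T * ((z - (x₀ + r : ℝ))⁻¹ + (z - (x₀ - r : ℝ))⁻¹)

theorem bar_im (z : ℂ) : (bar x₀ r T z).im =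
    -(4 * T * (z.im / Complex.normSq (z - (x₀ + r : ℝ)) +
      z.im / Complex.normSq (z - (x₀ - r : ℝ)))) := by
  unfold bar
  have e : (4 * T : ℂ) = ((4 * T : ℝ) : ℂ) := by push_cast; ring
  rw [e, Complex.im_ofReal_mul, Complex.add_im, Complex.inv_im, Complex.inv_im]
  simp only [Complex.sub_im, Complex.ofReal_im, sub_zero]
  ring

/-- On the circle the barrier is `4 T / y`. -/
theorem bar_circle (hr : 0 < r) {z : ℂ} (hz : 0 < z.im) (h : ‖z - x₀‖ = r) :
    (bar x₀ r T z).im = -(4 * T / z.im) := by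
  have e : (z.re - x₀) ^ 2 + z.im ^ 2 = r ^ 2 := by
    rw [← h, Complex.sq_norm, Complex.normSq_apply]
    simp only [Complex.sub_re, Complex.ofReal_re, Complex.sub_im, Complex.ofReal_im, sub_zero]
    ring
  have e1 : Complex.normSq (z - (x₀ + r : ℝ)) = 2 * r * (r - (z.re - x₀)) := by
    rw [Complex.normSq_apply]
    simp only [Complex.sub_re, Complex.ofReal_re, Complex.sub_im, Complex.ofReal_im, sub_zero]
    nlinarith
  have e2 : Complex.normSq (z - (x₀ - r : ℝ)) = 2 * r * (r + (z.re - x₀)) := by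
    rw [Complex.normSq_apply]
    simp only [Complex.sub_re, Complex.ofReal_re, Complex.sub_im, Complex.ofReal_im, sub_zero]
    nlinarith
  have h1 : |z.re - x₀| < r := by
    rw [← sq_lt_sq₀ (abs_nonneg _) hr.le, sq_abs]
    nlinarith [pow_pos hz 2]
  have h2 := abs_lt.1 h1
  have h3 : 0 < r - (z.re - x₀) := by linarith
  have h4 : 0 < r + (z.re - x₀) := by linarith
  rw [bar_im, e1, e2]
  have h5 : z.im ^ 2 = (r - (z.re - x₀)) * (r + (z.re - x₀)) := by nlinarith
  congr 1
  have h6 : z.im / (2 * r * (r - (z.re - x₀))) + z.im / (2 * r * (r + (z.re - x₀))) =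
      1 / z.im := by
    field_simp
    nlinarith
  rw [h6]
  ring

/-- Near the centre the barrier is at most `32 T y / r ^ 2`. -/
theorem bar_inner (hT : 0 ≤ T) (hr : 0 < r) {z : ℂ} (hz : 0 < z.im) (h : ‖z - x₀‖ ≤ r / 2) :
    -(bar x₀ r T z).im ≤ 32 * T / r ^ 2 * z.im := by
  have h1 : (r / 2) ^ 2 ≤ Complex.normSq (z - (x₀ + r : ℝ)) := by
    rw [← Complex.sq_norm]
    refine pow_le_pow_left₀ (by positivity) ?_ 2
    have h2 := norm_sub_norm_le ((r : ℝ) : ℂ) (z - x₀)
    have e : ((r : ℝ) : ℂ) - (z - x₀) = -(z - (x₀ + r : ℝ)) := by push_cast; ring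
    rw [e, norm_neg, Complex.norm_real, Real.norm_of_nonneg hr.le] at h2
    linarith
  have h3 : (r / 2) ^ 2 ≤ Complex.normSq (z - (x₀ - r : ℝ)) := by
    rw [← Complex.sq_norm]
    refine pow_le_pow_left₀ (by positivity) ?_ 2
    have h2 := norm_sub_norm_le ((r : ℝ) : ℂ) (-(z - x₀))
    have e : ((r : ℝ) : ℂ) - -(z - x₀) = (z - (x₀ - r : ℝ)) := by push_cast; ring
    rw [e, Complex.norm_real, Real.norm_of_nonneg hr.le, norm_neg] at h2
    linarith
  rw [bar_im, neg_neg]
  have h5 : z.im / Complex.normSq (z - (x₀ + r : ℝ)) ≤ z.im / (r / 2) ^ 2 :=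
    div_le_div_of_nonneg_left hz.le (by positivity) h1
  have h6 : z.im / Complex.normSq (z - (x₀ - r : ℝ)) ≤ z.im / (r / 2) ^ 2 :=
    div_le_div_of_nonneg_left hz.le (by positivity) h3
  calc 4 * T * (z.im / Complex.normSq (z - (x₀ + r : ℝ)) +
        z.im / Complex.normSq (z - (x₀ - r : ℝ))) ≤ 4 * T * (z.im / (r / 2) ^ 2 +
        z.im / (r / 2) ^ 2) := by gcongr
    _ = 32 * T / r ^ 2 * z.im := by field_simp; ring

/-- The loss of height is bounded by the barrier (maximum principle). -/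
theorem loss_le_bar (hV : Continuous V) (ht : 0 ≤ t) (htT : t ≤ T) (hr : 0 < r)
    (hal : ∀ z : ℂ, 0 < z.im → ‖z - x₀‖ ≤ r → z ∈ loewnerDomain V t)
    {z : ℂ} (hz : 0 < z.im) (hzr : ‖z - x₀‖ < r) :
    z.im - (gf V z t).im ≤ -(bar x₀ r T z).im := by
  -- the function
  set F : ℂ → ℂ := fun w => w - gf V w t + bar x₀ r T w with hF
  have hgd : ∀ w : ℂ, 0 < w.im → ‖w - x₀‖ ≤ r → DifferentiableAt ℂ F w := by
    intro w hw hwr
    have h1 : DifferentiableAt ℂ (fun w => gf V w t) w := by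
      have := (Zf_hasDerivAt hV ht (hal w hw hwr)).differentiableAt
      exact this.add_const (V t : ℂ)
    have h2 : w - (x₀ + r : ℝ) ≠ 0 := fun h0 => by
      have := congrArg Complex.im h0
      simp at this
      linarith
    have h3 : w - (x₀ - r : ℝ) ≠ 0 := fun h0 => by
      have := congrArg Complex.im h0
      simp at this
      linarith
    have h4 : DifferentiableAt ℂ (bar x₀ r T) w := by
      unfold bar
      refine DifferentiableAt.const_mul ?_ _
      have k1 : DifferentiableAt ℂ (fun z : ℂ => z - ((x₀ + r : ℝ) : ℂ)) w := by fun_prop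
      have k2 : DifferentiableAt ℂ (fun z : ℂ => z - ((x₀ - r : ℝ) : ℂ)) w := by fun_prop
      exact (k1.fun_inv h2).fun_add (k2.fun_inv h3)
    have k0 : DifferentiableAt ℂ (fun z : ℂ => z) w := differentiableAt_fun_id
    exact (k0.fun_sub h1).fun_add h4
  have hFim : ∀ w, (F w).im = w.im - (gf V w t).im + (bar x₀ r T w).im := fun w => by
    simp only [hF, Complex.add_im, Complex.sub_im]
  suffices h : (F z).im ≤ 0 by
    rw [hFim] at h
    linarith
  refine le_of_forall_pos_le_add fun τ₀ hτ₀ => ?_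
  set τ : ℝ := min (τ₀) (z.im / 2) with hτ
  have hτpos : 0 < τ := lt_min hτ₀ (by linarith)
  have hτz : τ < z.im := (min_le_right _ _).trans_lt (by linarith)
  set U : Set ℂ := ball (x₀ : ℂ) r ∩ {w | τ < w.im} with hU
  have hUo : IsOpen U := isOpen_ball.inter (isOpen_lt continuous_const Complex.continuous_im)
  have hUb : Bornology.IsBounded U := isBounded_ball.subset inter_subset_left
  have hUcl : closure U ⊆ closedBall (x₀ : ℂ) r ∩ {w | τ ≤ w.im} := by
    refine closure_minimal ?_ (isClosed_closedBall.inter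
      (isClosed_le continuous_const Complex.continuous_im))
    rintro w ⟨h1, h2⟩
    have h2' : τ < w.im := h2
    exact ⟨ball_subset_closedBall h1, h2'.le⟩
  have hmem : ∀ w ∈ closure U, 0 < w.im ∧ ‖w - x₀‖ ≤ r := by
    intro w hw
    obtain ⟨h1, h2⟩ := hUcl hw
    rw [mem_closedBall, dist_eq_norm] at h1
    exact ⟨hτpos.trans_le h2, h1⟩
  set G : ℂ → ℂ := fun w => Complex.exp (-Complex.I * F w) with hG
  have hGn : ∀ w, ‖G w‖ = Real.exp (F w).im := by
    intro w
    rw [hG, Complex.norm_exp]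
    congr 1
    simp
  have hGd : DiffContOnCl ℂ G U := by
    apply DifferentiableOn.diffContOnCl
    intro w hw
    obtain ⟨h1, h2⟩ := hmem w hw
    exact ((hgd w h1 h2).const_mul _).cexp.differentiableWithinAt
  have hbd : ∀ w ∈ frontier U, ‖G w‖ ≤ Real.exp τ := by
    intro w hw
    have hwc := frontier_subset_closure hw
    obtain ⟨h1, h2⟩ := hmem w hwc
    rw [hGn, Real.exp_le_exp, hFim]
    have hal' := hal w h1 h2
    have hgp := im_gf_pos ht hal'
    rcases h2.lt_or_eq with h3 | h3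
    · -- on the flat part
      have h4 : w.im = τ := by
        have h5 : τ ≤ w.im := (hUcl hwc).2
        by_contra h6
        have h7 : w ∈ U := ⟨by rwa [mem_ball, dist_eq_norm], lt_of_le_of_ne h5 (Ne.symm h6)⟩
        rw [frontier, hUo.interior_eq] at hw
        exact hw.2 h7
      have h5 : (bar x₀ r T w).im ≤ 0 := by
        rw [bar_im]
        have : 0 ≤ 4 * T * (w.im / Complex.normSq (w - (x₀ + r : ℝ)) +
            w.im / Complex.normSq (w - (x₀ - r : ℝ))) := by
          have h6 := Complex.normSq_nonneg (w - (x₀ + r : ℝ))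
          have h7 := Complex.normSq_nonneg (w - (x₀ - r : ℝ))
          have h8 : 0 ≤ T := ht.trans htT
          positivity
        linarith
      linarith
    · -- on the circle
      rw [bar_circle hr h1 h3]
      have h4 := loss_le ht hal'
      have h5 : w.im - (gf V w t).im ≤ 4 * T / w.im := by
        rw [le_div_iff₀ h1]
        linarith
      linarith
  have hzU : z ∈ closure U := subset_closure ⟨by rwa [mem_ball, dist_eq_norm], hτz⟩
  have h1 := Complex.norm_le_of_forall_mem_frontier_norm_le hUb hGd hbd hzU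
  rw [hGn, Real.exp_le_exp] at h1
  have := min_le_left τ₀ (z.im / 2)
  linarith

/-- Near the centre the height is almost preserved. -/
theorem im_gf_ge (hV : Continuous V) (ht : 0 ≤ t) (htT : t ≤ T) (hr : 0 < r)
    (hal : ∀ z : ℂ, 0 < z.im → ‖z - x₀‖ ≤ r → z ∈ loewnerDomain V t)
    {z : ℂ} (hz : 0 < z.im) (hzr : ‖z - x₀‖ ≤ r / 2) :
    (1 - 32 * T / r ^ 2) * z.im ≤ (gf V z t).im := by
  have h1 := loss_le_bar (T := T) hV ht htT hr hal hz (by linarith)
  have h2 := bar_inner (ht.trans htT) hr hz hzr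
  linarith

/-- The horizontal displacement. -/
theorem re_disp (hT : 0 ≤ T) (h : z ∈ loewnerDomain V T) {a k : ℝ} (ha : 0 < a)
    (hk : 0 < k) (hk' : k * z.im ≤ (gf V z T).im) :
    |(gf V z T).re - z.re| ≤ a * T + (1 / k - 1) / (2 * a) := by
  have hz : 0 < z.im := im_pos_of_dom hT h
  -- both signs
  have key : ∀ σ : ℝ, (σ = 1 ∨ σ = -1) → σ * ((gf V z T).re - z.re) ≤
      a * T + (1 / k - 1) / (2 * a) := by
    intro σ hσ
    set f : ℝ → ℝ := fun s => σ * (gf V z s).re - a * s + Real.log (Zf V z s).im / (2 * a) with hf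
    have hd : ∀ s ∈ Icc 0 T, HasDerivWithinAt f
        (σ * (2 / Zf V z s).re - a + (-(2 / ‖Zf V z s‖ ^ 2)) / (2 * a)) (Icc 0 T) s := by
      intro s hs
      have h1 : HasDerivWithinAt (fun u => (gf V z u).re) ((2 / Zf V z s).re) (Icc 0 T) s :=
        Complex.reCLM.hasFDerivAt.comp_hasDerivWithinAt s (gf_hasDeriv h hs)
      have h2 := logY_hasDeriv h hs
      have h3 : HasDerivWithinAt (fun u : ℝ => a * u) a (Icc 0 T) s := by
        simpa using (hasDerivWithinAt_id s (Icc 0 T)).const_mul a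
      exact ((h1.const_mul σ).sub h3).add (h2.div_const (2 * a))
    have hneg : ∀ s ∈ Icc 0 T, σ * (2 / Zf V z s).re - a + (-(2 / ‖Zf V z s‖ ^ 2)) / (2 * a) ≤ 0 := by
      intro s hs
      have hn : 0 < ‖Zf V z s‖ := Zf_norm_pos hs.1 (dom_mono hs.2 h)
      have h1 : σ * (2 / Zf V z s).re ≤ 2 / ‖Zf V z s‖ := by
        have h2 := Complex.abs_re_le_norm (2 / Zf V z s)
        rw [norm_div, Complex.norm_ofNat] at h2
        have h3 := abs_le.1 h2
        rcases hσ with rfl | rfl
        · linarith [h3.2]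
        · linarith [h3.1]
      set m := ‖Zf V z s‖ with hm
      have h4 : 2 / m ≤ a + 1 / (a * m ^ 2) := by
        have h5 : a + 1 / (a * m ^ 2) - 2 / m = (a * m - 1) ^ 2 / (a * m ^ 2) := by
          field_simp
          ring
        have h6 : 0 ≤ (a * m - 1) ^ 2 / (a * m ^ 2) := by positivity
        linarith
      have h7 : (-(2 / m ^ 2)) / (2 * a) = -(1 / (a * m ^ 2)) := by
        field_simp
      rw [h7]
      linarith
    have hanti : AntitoneOn f (Icc 0 T) := by
      refine antitoneOn_of_hasDerivWithinAt_nonpos (convex_Icc 0 T)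
        (f' := fun s => σ * (2 / Zf V z s).re - a + (-(2 / ‖Zf V z s‖ ^ 2)) / (2 * a))
        (fun s hs => (hd s hs).continuousWithinAt) ?_ ?_
      · intro s hs
        exact (hd s (interior_subset hs)).mono interior_subset
      · intro s hs
        exact hneg s (interior_subset hs)
    have h0 := hanti ⟨le_rfl, hT⟩ ⟨hT, le_rfl⟩ hT
    simp only [hf] at h0
    have e0 : (gf V z 0).re = z.re := by rw [gf_zero hz]
    have e1 : (Zf V z 0).im = z.im := by rw [Zf_zero hz]; simp
    rw [e0, e1, mul_zero, sub_zero, Zf_im_eq] at h0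
    have hgp := im_gf_pos hT h
    have h8 : Real.log z.im - Real.log (gf V z T).im ≤ 1 / k - 1 := by
      rw [← Real.log_div hz.ne' hgp.ne']
      have h9 : z.im / (gf V z T).im ≤ 1 / k := by
        rw [div_le_div_iff₀ hgp hk]
        linarith
      have h10 := Real.log_le_sub_one_of_pos (div_pos hz hgp)
      linarith
    have h11 : (Real.log z.im - Real.log (gf V z T).im) / (2 * a) ≤ (1 / k - 1) / (2 * a) :=
      div_le_div_of_nonneg_right h8 (by positivity)
    rw [sub_div] at h11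
    nlinarith
  rw [abs_le]
  constructor
  · have := key (-1) (Or.inr rfl)
    linarith
  · have := key 1 (Or.inl rfl)
    linarith

/-- The displacement near the centre. -/
theorem disp_le (hV : Continuous V) (ht : 0 ≤ t) (htT : t ≤ T) (hr : 0 < r)
    (hTr : 224 * T ≤ r ^ 2)
    (hal : ∀ z : ℂ, 0 < z.im → ‖z - x₀‖ ≤ r → z ∈ loewnerDomain V t)
    {z : ℂ} (hz : 0 < z.im) (hzr : ‖z - x₀‖ ≤ r / 2) : ‖gf V z t - z‖ ≤ r / 8 := by
  have hT : 0 ≤ T := ht.trans htT
  have hr2 : 0 < r ^ 2 := by positivity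
  have hκ : 32 * T / r ^ 2 ≤ 1 / 7 := by
    rw [div_le_iff₀ hr2]
    linarith
  have hκ0 : 0 ≤ 32 * T / r ^ 2 := by positivity
  have hm := hal z hz (by linarith)
  have h1 := im_gf_ge (T := T) hV ht htT hr hal hz hzr
  have h1' := im_gf_le ht hm
  set κ : ℝ := 32 * T / r ^ 2 with hκd
  have h2 := re_disp (a := 6 / r) (k := 1 - κ) ht hm (by positivity) (by linarith) h1
  have h3 : 1 / (1 - κ) - 1 ≤ 7 / 6 * κ := by
    rw [div_sub_one (by linarith), div_le_iff₀ (by linarith)]
    nlinarith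
  have h4 : 6 / r * t + (1 / (1 - κ) - 1) / (2 * (6 / r)) ≤ 12 * T / r := by
    have h5 : (1 / (1 - κ) - 1) / (2 * (6 / r)) ≤ (7 / 6 * κ) / (2 * (6 / r)) :=
      div_le_div_of_nonneg_right h3 (by positivity)
    have h6 : (7 / 6 * κ) / (2 * (6 / r)) ≤ 6 * T / r := by
      have : (7 / 6 * κ) / (2 * (6 / r)) = 28 / 9 * T / r := by
        rw [hκd]
        field_simp
        ring
      rw [this]
      gcongr
      norm_num
    have h7 : 6 / r * t ≤ 6 * T / r := by
      rw [div_mul_eq_mul_div]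
      gcongr
    have h8 : 6 * T / r + 6 * T / r = 12 * T / r := by ring
    linarith
  have h9 : |(gf V z t - z).im| ≤ κ * (r / 2) := by
    rw [Complex.sub_im, abs_sub_comm, abs_of_nonneg (by linarith)]
    have h10 : z.im ≤ r / 2 := by
      have := Complex.abs_im_le_norm (z - x₀)
      simp only [Complex.sub_im, Complex.ofReal_im, sub_zero] at this
      exact ((le_abs_self _).trans this).trans hzr
    nlinarith
  have h10 : |(gf V z t - z).re| ≤ 12 * T / r := by
    rw [Complex.sub_re]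
    linarith
  have h11 := Complex.norm_le_abs_re_add_abs_im (gf V z t - z)
  have h12 : κ * (r / 2) = 16 * T / r := by
    rw [hκd]
    field_simp
    ring
  have h13 : 28 * T / r ≤ r / 8 := by
    rw [div_le_iff₀ hr]
    nlinarith
  have h14 : 12 * T / r + 16 * T / r = 28 * T / r := by ring
  linarith

/-- The flow of the half disc covers a smaller half disc. -/
theorem cover (hV : Continuous V) (ht : 0 ≤ t) (htT : t ≤ T) (hr : 0 < r)
    (hTr : 224 * T ≤ r ^ 2)
    (hal : ∀ z : ℂ, 0 < z.im → ‖z - x₀‖ ≤ r → z ∈ loewnerDomain V t)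
    {w : ℂ} (hw : 0 < w.im) (hwr : ‖w - x₀‖ < r / 4) :
    ∃ z : ℂ, 0 < z.im ∧ ‖z - x₀‖ < r / 2 ∧ gf V z t = w := by
  set O : Set ℂ := {z | 0 < z.im} ∩ ball (x₀ : ℂ) (r / 2) with hO
  set P : Set ℂ := {z | 0 < z.im} ∩ ball (x₀ : ℂ) (r / 4) with hP
  set U : Set ℂ := (fun z => gf V z t) '' O with hU
  have hOm : ∀ z ∈ O, 0 < z.im ∧ ‖z - x₀‖ < r / 2 := fun z hz => by
    refine ⟨hz.1, ?_⟩
    have := hz.2
    rwa [mem_ball, dist_eq_norm] at this
  have hOsub : O ⊆ loewnerDomain V t := fun z hz =>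
    hal z (hOm z hz).1 (by linarith [(hOm z hz).2])
  have hOo : IsOpen O := (isOpen_lt continuous_const Complex.continuous_im).inter isOpen_ball
  have hgd : DifferentiableOn ℂ (fun z => gf V z t) (loewnerDomain V t) := by
    intro z hz
    have h1 := (Zf_hasDerivAt hV ht hz).differentiableAt
    exact (h1.add_const (V t : ℂ)).differentiableWithinAt
  have hUo : IsOpen U := by
    rw [isOpen_iff_mem_nhds]
    rintro _ ⟨z, hz, rfl⟩
    have h1 := Zf_hasDerivAt hV ht (hOsub hz)
    have h2 : HasDerivAt (fun z => gf V z t)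
        (Complex.exp (-∫ s in (0 : ℝ)..t, 2 / (Zf V z s) ^ 2)) z := h1.add_const (V t : ℂ)
    have h3 : AnalyticAt ℂ (fun z => gf V z t) z :=
      hgd.analyticAt ((isOpen_dom hV ht).mem_nhds (hOsub hz))
    have h4 := h3.hasStrictDerivAt
    rw [h2.deriv] at h4
    have h5 := h4.map_nhds_eq (Complex.exp_ne_zero _)
    rw [← h5]
    exact image_mem_map (hOo.mem_nhds hz)
  have hPc : IsPreconnected P :=
    ((convex_halfSpace_im_gt 0).inter (convex_ball (x₀ : ℂ) (r / 4))).isPreconnected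
  have hne : (P ∩ U).Nonempty := by
    set z : ℂ := x₀ + (r / 16 : ℝ) * Complex.I with hz
    have hzi : z.im = r / 16 := by simp [hz]
    have hzn : ‖z - x₀‖ = r / 16 := by
      rw [hz, add_sub_cancel_left, norm_mul, Complex.norm_I, mul_one, Complex.norm_real,
        Real.norm_of_nonneg (by positivity)]
    have hzp : 0 < z.im := by rw [hzi]; positivity
    have h1 := disp_le hV ht htT hr hTr hal hzp (by rw [hzn]; linarith)
    refine ⟨gf V z t, ⟨?_, ?_⟩, z, ⟨hzp, ?_⟩, rfl⟩
    · exact im_gf_pos ht (hal z hzp (by rw [hzn]; linarith))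
    · rw [mem_ball, dist_eq_norm]
      have h2 := norm_add_le (gf V z t - z) (z - x₀)
      rw [sub_add_sub_cancel] at h2
      rw [hzn] at h2
      linarith
    · rw [mem_ball, dist_eq_norm, hzn]
      linarith
  have hcl : closure U ∩ P ⊆ U := by
    rintro v ⟨hv, hv1, hv2⟩
    have hv1' : 0 < v.im := hv1
    rw [mem_ball, dist_eq_norm] at hv2
    obtain ⟨u, hu, hut⟩ := mem_closure_iff_seq_limit.1 hv
    choose zk hzk hzku using hu
    have hb : ∀ k, zk k ∈ closedBall (x₀ : ℂ) (r / 2) := fun k => by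
      rw [mem_closedBall, dist_eq_norm]
      exact (hOm _ (hzk k)).2.le
    obtain ⟨z, hz, φ, hφ, hφt⟩ := (isCompact_closedBall (x₀ : ℂ) (r / 2)).tendsto_subseq hb
    rw [mem_closedBall, dist_eq_norm] at hz
    have hut' : Tendsto (fun k => gf V (zk (φ k)) t) atTop (𝓝 v) := by
      have h1 := hut.comp hφ.tendsto_atTop
      refine h1.congr fun k => ?_
      exact (hzku (φ k)).symm
    have hzi : v.im ≤ z.im := by
      have h1 : Tendsto (fun k => (gf V (zk (φ k)) t).im) atTop (𝓝 v.im) :=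
        (Complex.continuous_im.tendsto v).comp hut'
      have h2 : Tendsto (fun k => (zk (φ k)).im) atTop (𝓝 z.im) :=
        (Complex.continuous_im.tendsto z).comp hφt
      exact le_of_tendsto_of_tendsto' h1 h2 fun k => im_gf_le ht (hOsub (hzk (φ k)))
    have hzp : 0 < z.im := hv1'.trans_le hzi
    have hzd : z ∈ loewnerDomain V t := hal z hzp (by linarith)
    have hcont : ContinuousAt (fun z => gf V z t) z :=
      (hgd.differentiableAt ((isOpen_dom hV ht).mem_nhds hzd)).continuousAt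
    have hgz : gf V z t = v := tendsto_nhds_unique (hcont.tendsto.comp hφt) hut'
    have h3 := disp_le hV ht htT hr hTr hal hzp hz
    refine ⟨z, ⟨hzp, ?_⟩, hgz⟩
    rw [mem_ball, dist_eq_norm]
    rw [hgz, norm_sub_rev] at h3
    have h4 := norm_add_le (z - v) (v - x₀)
    rw [sub_add_sub_cancel] at h4
    linarith
  have h := hPc.subset_of_closure_inter_subset hUo hne hcl
  obtain ⟨z, hz, hzw⟩ := h (show w ∈ P from ⟨hw, by rwa [mem_ball, dist_eq_norm]⟩)
  exact ⟨z, (hOm z hz).1, (hOm z hz).2, hzw⟩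

/-- The driver does not take the value `x₀` while the half disc is alive. -/
theorem ne_of_alive (hV : Continuous V) (ht : 0 ≤ t) (htT : t < T) (hr : 0 < r)
    (hTr : 224 * T ≤ r ^ 2)
    (hal : ∀ z : ℂ, 0 < z.im → ‖z - x₀‖ ≤ r → z ∈ loewnerDomain V T) : V t ≠ x₀ := by
  intro hVt
  have hal' : ∀ z : ℂ, 0 < z.im → ‖z - x₀‖ ≤ r → z ∈ loewnerDomain V t := fun z h1 h2 =>
    dom_mono htT.le (hal z h1 h2)
  set ϰ : ℝ := r / 8 with hϰ
  have hϰp : 0 < ϰ := by positivity
  -- a short interval after `t`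
  obtain ⟨T', htT', hT'T, hT1, hosc⟩ : ∃ T', t < T' ∧ T' ≤ T ∧ T' - t ≤ ϰ ^ 2 / 64 ∧
      ∀ v ∈ Icc t T', |V v - V t| ≤ ϰ / 8 := by
    obtain ⟨δ, hδ, hδ'⟩ := Metric.continuousAt_iff.1 (hV.continuousAt (x := t)) (ϰ / 8) (by positivity)
    refine ⟨min T (t + min (δ / 2) (ϰ ^ 2 / 64)), lt_min htT ?_, min_le_left _ _, ?_, ?_⟩
    · have : 0 < min (δ / 2) (ϰ ^ 2 / 64) := lt_min (by positivity) (by positivity)
      linarith
    · have h1 := min_le_right T (t + min (δ / 2) (ϰ ^ 2 / 64))
      have h2 := min_le_right (δ / 2) (ϰ ^ 2 / 64)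
      linarith
    · intro v hv
      have h1 := min_le_right T (t + min (δ / 2) (ϰ ^ 2 / 64))
      have h2 := min_le_left (δ / 2) (ϰ ^ 2 / 64)
      have h3 := hδ' (show dist v t < δ by
        rw [Real.dist_eq, abs_of_nonneg (by linarith [hv.1])]
        linarith [hv.2])
      rw [Real.dist_eq] at h3
      exact h3.le
  obtain ⟨z, hz, hz'⟩ := dom_strict hV ht htT'
  have hnd := Vale.Agent.P153.R2.STEP.near_dying hV hϰp ht htT'.le hz hz' hT1 hosc
  have hgi := im_gf_pos ht hz
  have hgn : ‖gf V z t - x₀‖ < r / 4 := by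
    have e : gf V z t - x₀ = Zf V z t := by rw [Zf_eq, hVt]
    rw [e]
    linarith
  obtain ⟨z', h1, h2, h3⟩ := cover hV ht htT.le hr hTr hal' hgi hgn
  have h4 : z' = z := by
    apply Zf_injOn hV ht (hal' z' h1 (by linarith)) hz
    show Zf V z' t = Zf V z t
    rw [Zf_eq, Zf_eq, h3]
  rw [h4] at h1 h2
  exact hz' (dom_mono hT'T (hal z h1 (by linarith)))

/-- **A driver cannot pass a half disc in a short time unless the hull visits it.** -/
theorem disc_dies {W : ℝ → ℝ} (hW : Continuous W) {a b : ℝ} (ha : 0 ≤ a) (hab : a < b)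
    {x₀ r : ℝ} (hr : 0 < r) (hT : 256 * (b - a) ≤ r ^ 2)
    (hx : (0 < x₀ ∧ x₀ < W b - W a) ∨ (W b - W a < x₀ ∧ x₀ < 0)) :
    ∃ z ∈ loewnerDomain W a, z ∉ loewnerDomain W b ∧ ‖Zf W z a - x₀‖ < r := by
  by_contra hcon
  push Not at hcon
  set V : ℝ → ℝ := fun u => W (a + u) - W a with hVd
  have hV : Continuous V := (hW.comp (continuous_const.add continuous_id)).sub continuous_const
  set r' : ℝ := 15 / 16 * r with hr'
  have hr'p : 0 < r' := by positivity
  have hTr : 224 * (b - a) ≤ r' ^ 2 := by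
    rw [hr', mul_pow]
    nlinarith [sq_nonneg r]
  have hal : ∀ z : ℂ, 0 < z.im → ‖z - x₀‖ ≤ r' → z ∈ loewnerDomain V (b - a) := by
    intro w hw hwr
    obtain ⟨z, hz, hzw⟩ := Zf_surj hW ha hw
    have h1 : z ∈ loewnerDomain W b := by
      by_contra h2
      have h3 := hcon z hz h2
      rw [hzw] at h3
      have : r' < r := by rw [hr']; linarith
      linarith
    have h2 := (Vale.Agent.P153.R2.STEP.dom_shift ha hab.le hz).1 h1
    rwa [hzw] at h2
  have hba : 0 < b - a := sub_pos.2 hab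
  have hV0 : V 0 = 0 := by simp [hVd]
  have hVb : V (b - a) = W b - W a := by
    simp only [hVd]
    rw [add_sub_cancel]
  -- intermediate value
  obtain ⟨t, ht, htx⟩ : ∃ t ∈ Ico 0 (b - a), V t = x₀ := by
    rcases hx with ⟨h1, h2⟩ | ⟨h1, h2⟩
    · have h3 := intermediate_value_Icc hba.le hV.continuousOn
      obtain ⟨t, ht, htx⟩ := h3 (show x₀ ∈ Icc (V 0) (V (b - a)) by
        rw [hV0, hVb]
        exact ⟨h1.le, h2.le⟩)
      refine ⟨t, ⟨ht.1, lt_of_le_of_ne ht.2 fun h => ?_⟩, htx⟩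
      rw [h, hVb] at htx
      linarith
    · have h3 := intermediate_value_Icc' hba.le hV.continuousOn
      obtain ⟨t, ht, htx⟩ := h3 (show x₀ ∈ Icc (V (b - a)) (V 0) by
        rw [hV0, hVb]
        exact ⟨h1.le, h2.le⟩)
      refine ⟨t, ⟨ht.1, lt_of_le_of_ne ht.2 fun h => ?_⟩, htx⟩
      rw [h, hVb] at htx
      linarith
  exact ne_of_alive hV ht.1 ht.2 hr'p hTr hal htx

end Vale.Agent.P167.H947.DT
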