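import Vale.Agent.P167.H411.Asym6
import Vale.Agent.P167.S6.Tip
import Vale.Agent.P167.H947.DT.Ode

/-!
# P167: the path after a stopping index in the picture of the Loewner map

For a family `Q` of curves (`H411/Asym6.lean`), an outcome `h` and a step `k` before the last one:
`Gm` is the image of the curve after the step `k` under the centred Loewner map of the time of `k`;
it starts at `0`, ends at `∞`, and its image under `Fm := ψ ∘ invflow` is the curve. `Fm` depends only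
on the history of the step `k`. `visit`: a large displacement of the driver within a small capacity
forces `Gm` to visit a small half disc.
-/

set_option autoImplicit false
set_option linter.unusedVariables false

open MeasureTheory Filter Topology Set Metric
open scoped NNReal ENNReal

namespace Vale.Agent.P167.H947.DT

open Vale.Agent.P164 Vale.Agent.P153.R2.HULL
open Vale.Agent.P153.R2
open Vale.Agent.P153.R2.L2 (Crv gg cc ww drv tau)
open Vale.Agent.P153.R2.L2.Crv (drvT)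
open Vale.Agent.P153.R2.ARCX (SGen)
open Vale.Agent.P153.R2.DET (Uni HC)
open Vale.Agent.P167.H411

/-- The inverse flow only depends on the driver up to the time. -/
theorem invflow_congr {W W' : ℝ → ℝ} {a : ℝ} (ha : 0 ≤ a) (h : ∀ s ∈ Icc 0 a, W s = W' s) :
    invflow W a = invflow W' a := by
  have h1 : flow W a = flow W' a := by
    funext z
    exact Zf_congr (z := z) ha h
  have h2 : loewnerDomain W a = loewnerDomain W' a := by
    ext z
    exact (gf_congr ha h).1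
  funext w
  unfold invflow
  rw [h1, h2]

variable {A B : Type*} {Q : DC A B} {ψ : ℂ → ℂ} {b : ℂ} {ε : ℝ} {h h' : A} {k : ℕ}

/-- The driver. -/
noncomputable def Wd (Q : DC A B) (ψ : ℂ → ℂ) (h : A) : ℝ → ℝ := (Q.expl ψ).W h

/-- The capacity at the step `k`. -/
noncomputable def ca (Q : DC A B) (ψ : ℂ → ℂ) (h : A) (k : ℕ) : ℝ := (Q.expl ψ).c h k

/-- The curve after the step `k` in the picture of the centred Loewner map. -/
noncomputable def Gm (Q : DC A B) (ψ : ℂ → ℂ) (h : A) (k : ℕ) (u : ℝ) : ℂ :=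
  Zf (Wd Q ψ h) (Q.et ψ h u) (ca Q ψ h k)

/-- The inverse map onto the slit domain. -/
noncomputable def Fm (Q : DC A B) (ψ : ℂ → ℂ) (h : A) (k : ℕ) (w : ℂ) : ℂ :=
  ψ (invflow (Wd Q ψ h) (ca Q ψ h k) w)

section

variable (H : Q.WF ψ b ε) (hU : Uni ψ b) (hh : h ∈ Q.C)
include H hU hh

theorem wd_cont : Continuous (Wd Q ψ h) := (DC.sgen (H.crv hU hh) (H.pos h hh)).1

theorem sg : SGen (Wd Q ψ h) (Q.et ψ h) (cc (Q.et ψ h)) (Q.K h - 1 / 2) :=
  (DC.sgen (H.crv hU hh) (H.pos h hh)).2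

omit H hU hh in
theorem ca_eq (hk : k < Q.K h) : ca Q ψ h k = cc (Q.et ψ h) k := DC.c_lt hk

omit H hU hh in
theorem mem_half (hk : k < Q.K h) : (k : ℝ) ∈ Ico 0 (Q.K h - 1 / 2 : ℝ) := by
  have : (k : ℝ) + 1 ≤ Q.K h := by exact_mod_cast hk
  exact ⟨Nat.cast_nonneg k, by linarith⟩

theorem ca_nonneg (hk : k < Q.K h) : 0 ≤ ca Q ψ h k := by
  rw [ca_eq hk]
  have hs := sg H hU hh
  have := hs.mono.monotoneOn ⟨le_rfl, hs.pos⟩ (mem_half hk) (Nat.cast_nonneg k)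
  rwa [hs.c_zero] at this

theorem dom_ca (hk : k < Q.K h) :
    loewnerDomain (Wd Q ψ h) (ca Q ψ h k) = {z : ℂ | 0 < z.im} \ Q.et ψ h '' Icc 0 (k : ℝ) := by
  rw [ca_eq hk]
  exact (sg H hU hh).dom k (mem_half hk)

theorem et_dom (hk : k < Q.K h) {u : ℝ} (hu : u ∈ Ioo (k : ℝ) (Q.K h)) :
    Q.et ψ h u ∈ loewnerDomain (Wd Q ψ h) (ca Q ψ h k) := by
  rw [dom_ca H hU hh hk]
  have hk0 : (0 : ℝ) ≤ k := Nat.cast_nonneg k
  refine ⟨H.et_im hU hh (hk0.trans_lt hu.1) hu.2, ?_⟩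
  rintro ⟨v, hv, he⟩
  have := H.et_inj hh ⟨hv.1, hv.2.trans_lt (hu.1.trans hu.2)⟩ ⟨hk0.trans hu.1.le, hu.2⟩ he
  rw [this] at hv
  exact absurd hu.1 (not_lt.2 hv.2)

theorem Gm_im (hk : k < Q.K h) {u : ℝ} (hu : u ∈ Ioo (k : ℝ) (Q.K h)) : 0 < (Gm Q ψ h k u).im :=
  Zf_im_pos (ca_nonneg H hU hh hk) (et_dom H hU hh hk hu)

theorem Fm_Gm (hk : k < Q.K h) {u : ℝ} (hu : u ∈ Ioo (k : ℝ) (Q.K h)) :
    Fm Q ψ h k (Gm Q ψ h k u) = Q.X h u := by
  have hk0 : (0 : ℝ) ≤ k := Nat.cast_nonneg k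
  unfold Fm Gm
  have h1 : invflow (Wd Q ψ h) (ca Q ψ h k) (Zf (Wd Q ψ h) (Q.et ψ h u) (ca Q ψ h k)) =
      Q.et ψ h u :=
    invflow_flow (ca_nonneg H hU hh hk) (wd_cont H hU hh).continuousOn (et_dom H hU hh hk hu)
  rw [h1]
  exact H.psi_et hh (hk0.trans hu.1.le) hu.2

theorem Gm_cont (hk : k < Q.K h) : ContinuousOn (Gm Q ψ h k) (Ioo (k : ℝ) (Q.K h)) := by
  have hk0 : (0 : ℝ) ≤ k := Nat.cast_nonneg k
  have ha := ca_nonneg H hU hh hk
  have hW := wd_cont H hU hh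
  have h1 : ContinuousOn (fun z => Zf (Wd Q ψ h) z (ca Q ψ h k))
      (loewnerDomain (Wd Q ψ h) (ca Q ψ h k)) := fun z hz =>
    (Vale.Agent.P164.Zf_hasDerivAt hW ha hz).continuousAt.continuousWithinAt
  exact h1.comp ((H.et_cont hU hh).mono fun u hu => ⟨hk0.trans hu.1.le, hu.2⟩)
    fun u hu => et_dom H hU hh hk hu

/-- The curve starts at the origin. -/
theorem Gm_zero (hk : k < Q.K h) : Tendsto (Gm Q ψ h k) (𝓝[>] (k : ℝ)) (𝓝 0) := by
  rw [Metric.tendsto_nhds]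
  intro e he
  have hW := wd_cont H hU hh
  have hs := sg H hU hh
  have hkm := mem_half hk
  have hk0 : (0 : ℝ) ≤ k := Nat.cast_nonneg k
  -- continuity of the driver at the capacity time
  obtain ⟨δ, hδ, hδ'⟩ := Metric.continuousAt_iff.1 (hW.continuousAt (x := cc (Q.et ψ h) k)) (e / 8)
    (by positivity)
  -- continuity of the capacity
  have hcw := hs.contc (k : ℝ) hkm
  have hcw' : Tendsto (cc (Q.et ψ h)) (𝓝[>] (k : ℝ)) (𝓝 (cc (Q.et ψ h) k)) := by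
    refine hcw.mono_left ?_
    refine le_inf nhdsWithin_le_nhds ?_
    rw [le_principal_iff]
    exact mem_of_superset (Ioo_mem_nhdsGT hkm.2) fun u hu => ⟨hk0.trans hu.1.le, hu.2⟩
  have h1 := Metric.tendsto_nhds.1 hcw' (min δ (e ^ 2 / 64)) (lt_min hδ (by positivity))
  filter_upwards [h1, Ioo_mem_nhdsGT hkm.2] with u hu hum
  have hu0 : u ∈ Ico 0 (Q.K h - 1 / 2 : ℝ) := ⟨hk0.trans hum.1.le, hum.2⟩
  have hlt : cc (Q.et ψ h) k < cc (Q.et ψ h) u := hs.mono hkm hu0 hum.1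
  rw [Real.dist_eq, abs_of_pos (by linarith)] at hu
  rw [dist_zero_right]
  have huK : u ∈ Ioo (k : ℝ) (Q.K h) := ⟨hum.1, by linarith [hum.2]⟩
  have hd := et_dom H hU hh hk huK
  unfold Gm
  rw [ca_eq hk] at hd ⊢
  have hck : 0 ≤ cc (Q.et ψ h) k := by rw [← ca_eq (ψ := ψ) hk]; exact ca_nonneg H hU hh hk
  refine Vale.Agent.P153.R2.STEP.near_dying (T := cc (Q.et ψ h) u) hW he hck hlt.le hd ?_ ?_ ?_
  · rw [hs.dom u hu0]
    rintro ⟨-, hn⟩
    exact hn ⟨u, ⟨hu0.1, le_rfl⟩, rfl⟩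
  · exact (hu.trans_le (min_le_right _ _)).le
  · intro v hv
    have h3 := hδ' (x := v) (by
      rw [Real.dist_eq, abs_of_nonneg (by linarith [hv.1])]
      have := hu.trans_le (min_le_left _ _)
      linarith [hv.2])
    rw [Real.dist_eq] at h3
    exact h3.le

/-- The curve ends at infinity. -/
theorem Gm_inf (hk : k < Q.K h) : Tendsto (fun u => ‖Gm Q ψ h k u‖) (𝓝[<] (Q.K h : ℝ)) atTop := by
  have hW := wd_cont H hU hh
  have hk0 : (0 : ℝ) ≤ k := Nat.cast_nonneg k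
  have hkK : (k : ℝ) < Q.K h := by exact_mod_cast hk
  have ha := ca_nonneg H hU hh hk
  obtain ⟨M, hM⟩ := isCompact_Icc.exists_bound_of_continuousOn
    (hW.continuousOn (s := Icc 0 (ca Q ψ h k)))
  rw [Filter.tendsto_atTop]
  intro x
  obtain ⟨δ, hδ, hfar⟩ := S6.far_of_near hU (2 * M + 3 * √(ca Q ψ h k) + max x 0)
  have hX : Tendsto (Q.X h) (𝓝[<] (Q.K h : ℝ)) (𝓝 b) := by
    have h1 := H.cont h hh (Q.K h : ℝ) ⟨hk0.trans hkK.le, le_rfl⟩
    rw [ContinuousWithinAt, H.last h hh] at h1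
    refine h1.mono_left (le_inf nhdsWithin_le_nhds ?_)
    rw [le_principal_iff]
    exact mem_of_superset (Ioo_mem_nhdsLT (hk0.trans_lt hkK)) fun u hu => ⟨hu.1.le, hu.2.le⟩
  filter_upwards [Metric.tendsto_nhds.1 hX δ hδ, Ioo_mem_nhdsLT hkK] with u hu hum
  have hu0 : 0 ≤ u := hk0.trans hum.1.le
  rw [← H.psi_et hh hu0 hum.2] at hu
  have h1 := hfar _ (H.et_mem hh hu0 hum.2) hu
  have h2 := S6.far_image hW ha hM (H.et_im hU hh (hk0.trans_lt hum.1) hum.2) h1 (le_max_right _ _)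
  exact (le_max_left _ _).trans h2.2.le

/-- The image of the inverse map. -/
theorem Fm_image (hk : k < Q.K h) :
    Fm Q ψ h k '' {z : ℂ | 0 < z.im} = ψ '' {z : ℂ | 0 < z.im} \ Q.X h '' Icc 0 (k : ℝ) := by
  have hkK : (k : ℝ) < Q.K h := by exact_mod_cast hk
  have ha := ca_nonneg H hU hh hk
  have hW := wd_cont H hU hh
  have e1 : Fm Q ψ h k '' {z : ℂ | 0 < z.im} = ψ '' loewnerDomain (Wd Q ψ h) (ca Q ψ h k) := by
    rw [dom_eq_image hW ha, image_image]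
    rfl
  rw [e1, dom_ca H hU hh hk]
  ext z
  constructor
  · rintro ⟨x, ⟨hx, hxn⟩, rfl⟩
    have hx' : 0 < x.im := hx
    refine ⟨⟨x, hx, rfl⟩, ?_⟩
    rintro ⟨v, hv, he⟩
    rw [← H.psi_et hh hv.1 (hv.2.trans_lt hkK)] at he
    exact hxn ⟨v, hv, hU.inj (H.et_mem hh hv.1 (hv.2.trans_lt hkK)) (show x ∈ HC from hx'.le) he⟩
  · rintro ⟨⟨x, hx, rfl⟩, hn⟩
    refine ⟨x, ⟨hx, ?_⟩, rfl⟩
    rintro ⟨v, hv, rfl⟩
    exact hn ⟨v, hv, (H.psi_et hh hv.1 (hv.2.trans_lt hkK)).symm⟩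

theorem Fm_diff (hd : DifferentiableOn ℂ ψ {z : ℂ | 0 < z.im}) (hk : k < Q.K h) :
    DifferentiableOn ℂ (Fm Q ψ h k) UH := by
  have ha := ca_nonneg H hU hh hk
  have hW := wd_cont H hU hh
  intro w hw
  have h0 : invflow (Wd Q ψ h) (ca Q ψ h k) w ∈ UH :=
    dom_subset_UH ha (invflow_mem ha hW.continuousOn hw)
  have h1 := hasDerivAt_invflow ha hW.continuousOn hw
  have h2 := hd.differentiableAt (isOpen_UH.mem_nhds h0)
  exact (h2.comp w h1.differentiableAt).differentiableWithinAt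

theorem Fm_inj (hk : k < Q.K h) : InjOn (Fm Q ψ h k) UH := by
  have ha := ca_nonneg H hU hh hk
  have hW := wd_cont H hU hh
  intro w hw w' hw' he
  have h0 : 0 < (invflow (Wd Q ψ h) (ca Q ψ h k) w).im :=
    dom_subset_UH ha (invflow_mem ha hW.continuousOn hw)
  have h0' : 0 < (invflow (Wd Q ψ h) (ca Q ψ h k) w').im :=
    dom_subset_UH ha (invflow_mem ha hW.continuousOn hw')
  have h1 := hU.inj (show _ ∈ HC from h0.le) (show _ ∈ HC from h0'.le) he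
  have h2 := congrArg (flow (Wd Q ψ h) (ca Q ψ h k)) h1
  rwa [flow_invflow ha hW.continuousOn hw, flow_invflow ha hW.continuousOn hw'] at h2

/-- **Visits.** -/
theorem visit (hk : k < Q.K h) {j : ℕ} (hkj : k ≤ j) (hj : j < Q.K h) {e r : ℝ} (he : 0 < e)
    (hr : 0 < r) (hd : 256 * (ca Q ψ h j - ca Q ψ h k) ≤ r ^ 2)
    (hV : e ≤ |(Q.expl ψ).V h j - (Q.expl ψ).V h k|) :
    ∃ u ∈ Ioo (k : ℝ) (Q.K h), ‖Gm Q ψ h k u - ((e / 2 : ℝ) : ℂ)‖ < r ∨
      ‖Gm Q ψ h k u - ((-(e / 2) : ℝ) : ℂ)‖ < r := by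
  have hW := wd_cont H hU hh
  have ha := ca_nonneg H hU hh hk
  have hs := sg H hU hh
  have eV : ∀ i, (Q.expl ψ).V h i = Wd Q ψ h (ca Q ψ h i) := fun i => rfl
  rw [eV, eV] at hV
  have hne : k ≠ j := by
    rintro rfl
    rw [sub_self, abs_zero] at hV
    linarith
  have hlt : k < j := lt_of_le_of_ne hkj hne
  have hab : ca Q ψ h k < ca Q ψ h j := by
    rw [ca_eq hk, ca_eq hj]
    exact hs.mono (mem_half hk) (mem_half hj) (by exact_mod_cast hlt)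
  -- the swallowed point is on the curve
  have key : ∀ x₀ : ℝ, ((0 < x₀ ∧ x₀ < Wd Q ψ h (ca Q ψ h j) - Wd Q ψ h (ca Q ψ h k)) ∨
      (Wd Q ψ h (ca Q ψ h j) - Wd Q ψ h (ca Q ψ h k) < x₀ ∧ x₀ < 0)) →
      ∃ u ∈ Ioo (k : ℝ) (Q.K h), ‖Gm Q ψ h k u - x₀‖ < r := by
    intro x₀ hx
    obtain ⟨z, hz, hz', hzr⟩ := disc_dies hW ha hab hr hd hx
    rw [dom_ca H hU hh hj] at hz'
    rw [dom_ca H hU hh hk] at hz
    have hz1 : z ∈ Q.et ψ h '' Icc 0 (j : ℝ) := by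
      by_contra hc
      exact hz' ⟨hz.1, hc⟩
    obtain ⟨u, hu, rfl⟩ := hz1
    refine ⟨u, ⟨?_, ?_⟩, hzr⟩
    · by_contra hc
      exact hz.2 ⟨u, ⟨hu.1, not_lt.1 hc⟩, rfl⟩
    · have : (j : ℝ) < Q.K h := by exact_mod_cast hj
      linarith [hu.2]
  rcases le_abs.1 hV with h1 | h1
  · obtain ⟨u, hu, hur⟩ := key (e / 2) (Or.inl ⟨by linarith, by linarith⟩)
    exact ⟨u, hu, Or.inl hur⟩
  · obtain ⟨u, hu, hur⟩ := key (-(e / 2)) (Or.inr ⟨by linarith, by linarith⟩)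
    exact ⟨u, hu, Or.inr hur⟩

/-- The inverse map depends only on the history. -/
theorem Fm_congr (hh' : h' ∈ Q.C) (hk : k < Q.K h) (hag : ∀ i ≤ k, Q.r h' i = Q.r h i) :
    k < Q.K h' ∧ Fm Q ψ h' k = Fm Q ψ h k := by
  have hk' : k < Q.K h' := by
    by_contra hc
    push Not at hc
    have := H.stopK h' hh' h hh fun i hi => (hag i (hi.trans hc)).symm
    omega
  refine ⟨hk', ?_⟩
  have hc := H.crv hU hh
  have hc' := H.crv hU hh'
  have hn := H.pos h hh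
  have hn' := H.pos h' hh'
  have hs := sg H hU hh
  have he : ∀ u ∈ Icc (0 : ℝ) k, Q.et ψ h' u = Q.et ψ h u :=
    fun u hu => DC.et_congr H hh hh' hk.le hag hu.1 hu.2
  have e1 : ca Q ψ h' k = ca Q ψ h k := by
    rw [ca_eq hk, ca_eq hk']
    exact H411.cc_congr he
  have hkm := mem_half hk
  have hkm' := mem_half hk'
  have ha := ca_nonneg H hU hh hk
  have hdrv : ∀ s ∈ Icc 0 (ca Q ψ h k), Wd Q ψ h' s = Wd Q ψ h s := by
    intro s hs'
    -- `s` is the capacity of a time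
    have hcont : ContinuousOn (cc (Q.et ψ h)) (Icc (0 : ℝ) k) :=
      hs.contc.mono fun u hu => ⟨hu.1, hu.2.trans_lt hkm.2⟩
    have hsub := intermediate_value_Icc (Nat.cast_nonneg k : (0 : ℝ) ≤ k) hcont
    rw [ca_eq hk] at hs'
    obtain ⟨t, ht, hts⟩ := hsub (show s ∈ Icc (cc (Q.et ψ h) 0) (cc (Q.et ψ h) k) by
      rw [hs.c_zero]; exact hs')
    have htt : cc (Q.et ψ h') t = cc (Q.et ψ h) t :=
      H411.cc_congr fun u hu => he u ⟨hu.1, hu.2.trans ht.2⟩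
    have h1 : Wd Q ψ h s = ww (Q.et ψ h) t := by
      rw [← hts]
      exact DC.wf_cc hc hn ht.1 (ht.2.trans hkm.2.le)
    have h2 : Wd Q ψ h' s = ww (Q.et ψ h') t := by
      rw [← hts, ← htt]
      exact DC.wf_cc hc' hn' ht.1 (ht.2.trans hkm'.2.le)
    rw [h1, h2]
    have hkK : (k : ℝ) < Q.K h := by exact_mod_cast hk
    have hkK' : (k : ℝ) < Q.K h' := by exact_mod_cast hk'
    exact H411.ww_congr hc hc' ht.1 (ht.2.trans_lt hkK) (ht.2.trans_lt hkK')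
      fun u hu => he u ⟨hu.1, hu.2.trans ht.2⟩
  unfold Fm
  funext w
  rw [e1, invflow_congr ha hdrv]

end

end Vale.Agent.P167.H947.DT
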